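import Vale.Agent.P259.Defs

/-! P259, step 5: elements of a groupoid, representables. -/

noncomputable section

open CategoryTheory Opposite

namespace Vale.Agent.P259

variable {C : GlobExt}

namespace Gpd

/-- The elements over a globular sum. -/
abbrev val (X : Gpd C) (A : GlobSum) : Type := X.obj.obj (op (C.ob A))

/-- The action of a map of the coherator. -/
def act (X : Gpd C) {A B : GlobSum} (h : C.Hom A B) : X.val B → X.val A :=
  X.obj.map (Quiver.Hom.op (show C.ob A ⟶ C.ob B from h))

@[simp] theorem act_id (X : Gpd C) {A : GlobSum} (u : X.val A) : X.act (C.id A) u = u :=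
  ConcreteCategory.congr_hom (X.obj.map_id _) u

theorem act_comp (X : Gpd C) {A B D : GlobSum} (f : C.Hom A B) (g : C.Hom B D) (u : X.val D) :
    X.act (C.comp f g) u = X.act f (X.act g u) :=
  ConcreteCategory.congr_hom (X.obj.map_comp (Quiver.Hom.op (show C.ob B ⟶ C.ob D from g))
    (Quiver.Hom.op (show C.ob A ⟶ C.ob B from f))) u

end Gpd

/-- The category of elements of `X`. -/
structure El (X : Gpd C) : Type where
  S : GlobSum
  u : X.val S

namespace El

variable {X : Gpd C}

/-- A map of elements. -/
@[ext]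
structure Map (a b : El X) : Type where
  h : C.Hom a.S b.S
  compat : X.act h b.u = a.u

instance : Category.{0} (El X) where
  Hom := Map
  id a := ⟨C.id a.S, X.act_id a.u⟩
  comp f g := ⟨C.comp f.h g.h, by rw [X.act_comp, g.compat, f.compat]⟩
  id_comp f := Map.ext (C.id_comp f.h)
  comp_id f := Map.ext (C.comp_id f.h)
  assoc f g k := Map.ext (C.assoc f.h g.h k.h)

@[simp] theorem id_h (a : El X) : (𝟙 a : a ⟶ a).h = C.id a.S := rfl

@[simp] theorem comp_h {a b c : El X} (f : a ⟶ b) (g : b ⟶ c) : (f ≫ g).h = C.comp f.h g.h := rfl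

@[ext] theorem hom_ext {a b : El X} {f g : a ⟶ b} (e : f.h = g.h) : f = g := Map.ext e

end El

/-- The representable groupoid. -/
def repGpd (C : GlobExt) (R : GlobSum) : Gpd C :=
  ⟨yoneda.obj (C.ob R), C.preserves R⟩

theorem repGpd_act (R : GlobSum) {A B : GlobSum} (h : C.Hom A B) (u : (repGpd C R).val B) :
    (repGpd C R).act h u = C.comp h u := rfl

end Vale.Agent.P259
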