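import Vale.Agent.P259.Five.Beta
import Vale.Agent.P259.Top.Bridge
import Vale.Agent.P259.Cat.Groupoid

/-!
P259: the cells of a groupoid with given faces are the discs of its space with given boundary, up
to homotopy relative to the sphere.
-/

noncomputable section

open CategoryTheory Opposite Set unitInterval

namespace Vale.Agent.P259

variable {C : GlobExt}

namespace Shape

variable (s : Shape C)

/-- The class of the first point of an element. -/
def component (X : Gpd C) (a : El X) : Quot (X.Connected (n := 0)) :=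
  Quot.mk _ (X.act (s.first a.S) a.u)

theorem component_eq (hC : IsCoherator C) (X : Gpd C) {a b : El X} (f : a ⟶ b) :
    s.component X a = s.component X b := by
  obtain ⟨l, hl, hr⟩ := (hC.2 0 b.S (C.comp (s.first a.S) f.h) (s.first b.S) trivial).some
  refine Quot.sound ⟨X.act l b.u, ?_, ?_⟩
  · refine (X.act_comp _ _ b.u).symm.trans ((congrArg (fun h => X.act h b.u) hl).trans ?_)
    exact (X.act_comp _ _ b.u).trans (congrArg (X.act _) f.compat)
  · exact (X.act_comp _ _ b.u).symm.trans (congrArg (fun h => X.act h b.u) hr)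

/-- The component of a point. -/
def componentMap (hC : IsCoherator C) (X : Gpd C) : GX X → Quot (X.Connected (n := 0)) :=
  Quot.lift (fun a : Real.Pre (Real.nerve (El X)) =>
      s.component X ((a.2.1 : ComposableArrows (El X) a.1).obj 0))
    (by
      rintro _ _ ⟨δ, c, t⟩
      exact (s.component_eq hC X ((c : ComposableArrows (El X) _).map
        (homOfLE (Fin.zero_le (δ 0))))).symm)

theorem componentMap_mk (hC : IsCoherator C) (X : Gpd C) {p : ℕ}
    (c : ComposableArrows (El X) p) (t : Real.Simp p) :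
    s.componentMap hC X (Real.mk (X := Real.nerve (El X)) c t) = s.component X (c.obj 0) := rfl

theorem componentMap_vtx (hC : IsCoherator C) (X : Gpd C) (x : X.cells 0) :
    s.componentMap hC X (vtx X x) = Quot.mk _ x := by
  refine congrArg (Quot.mk (X.Connected (n := 0))) ?_
  show X.act (s.first (disc 0)) x = x
  rw [s.first_zero]
  exact X.act_id x

theorem componentMap_eq_of_joined (hC : IsCoherator C) (X : Gpd C) {z z' : GX X}
    (h : Joined z z') : s.componentMap hC X z = s.componentMap hC X z' := by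
  have hl : IsLocallyConstant (s.componentMap hC X) := fun A =>
    Real.isOpen_iff.2 fun p => by
      let := (Real.nerve (El X)).top p
      haveI : DiscreteTopology ((Real.nerve (El X)).obj p) := ⟨rfl⟩
      exact (isOpen_discrete {c : (Real.nerve (El X)).obj p |
        s.component X ((c : ComposableArrows (El X) p).obj 0) ∈ A}).preimage continuous_fst
  obtain ⟨γ⟩ := h
  have := (hl.comp_continuous γ.continuous).apply_eq_of_preconnectedSpace 0 1
  simpa using this

include s in
/-- Zero cells are the path components. -/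
theorem W_zero (hC : IsCoherator C) (X : Gpd C) :
    (∀ x y : X.cells 0, Joined (vtx X x) (vtx X y) → X.Connected x y) ∧
      ∀ z : GX X, ∃ x : X.cells 0, Joined (vtx X x) z := by
  refine ⟨fun x y h => ?_, fun z => ?_⟩
  · have e := s.componentMap_eq_of_joined hC X h
    rw [s.componentMap_vtx, s.componentMap_vtx] at e
    exact (connected_equivalence hC X 0).eqvGen_iff.1 (Quot.eqvGen_exact e)
  · obtain ⟨a, ha⟩ := Real.exists_joined_vertex z
    let f : (⟨disc 0, X.act (s.first a.S) a.u⟩ : El X) ⟶ a := ⟨s.first a.S, rfl⟩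
    exact ⟨X.act (s.first a.S) a.u, (Real.joined_vertex f).trans ha.symm⟩

theorem susp_end {n : ℕ} (p : Disc.Dn n) {t : I} (h : t = 0 ∨ t = 1) :
    ∃ z, Disc.incl z = Disc.susp (p, t) := by
  refine ⟨⟨(Disc.susp (p, t)).1, mem_sphere_zero_iff_norm.2 ?_⟩, rfl⟩
  have e := Disc.norm_sq_consVec (2 * (t : ℝ) - 1)
    (Disc.width t • (p : EuclideanSpace ℝ (Fin n)))
  have hw := Disc.width_sq t
  rw [Disc.width_eq_zero.2 h] at e hw
  rw [zero_smul, norm_zero] at e
  refine (pow_eq_one_iff_of_nonneg (norm_nonneg _) two_ne_zero).1 ?_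
  rw [Disc.susp_val, Disc.width_eq_zero.2 h, zero_smul, e]
  linarith

/-- Two homotopic discs between the same end points come from homotopic discs of the groupoid
between them. -/
theorem hRel_hom {n : ℕ} (X : Gpd C) {x y : X.cells 0} (hσ : Top.WeakEq (s.sig X x y))
    (w w' : (s.homGpd X x y).cells n)
    (hb : ∀ z, (s.cell _ n w) (Disc.incl z) = (s.cell _ n w') (Disc.incl z))
    (h : Disc.HRel (s.cell X (n + 1) w.1) (s.cell X (n + 1) w'.1)) :
    Disc.HRel (s.cell _ n w) (s.cell _ n w') := by
  obtain ⟨H, h0, h1, hH⟩ := h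
  have hc : ∀ p t, (s.cell X (n + 1) w.1) (Disc.susp (p, t)) =
      s.sig X x y ((s.cell _ n w) p) t := s.cell_susp X w.1 w.2.1 w.2.2 w rfl
  have hc' : ∀ p t, (s.cell X (n + 1) w'.1) (Disc.susp (p, t)) =
      s.sig X x y ((s.cell _ n w') p) t := s.cell_susp X w'.1 w'.2.1 w'.2.2 w' rfl
  have he : ∀ (t : I) (p : Disc.Dn n) (r : I), t = 0 ∨ t = 1 →
      H (Disc.susp (p, t), r) = s.sig X x y ((s.cell _ n w) p) t := fun t p r ht => by
    obtain ⟨z, hz⟩ := susp_end p ht
    rw [← hz, hH, hz, hc]
  let K : Disc.Dn n × I → Path (vtx X x) (vtx X y) := fun q =>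
    { toFun := fun t => H (Disc.susp (q.1, t), q.2)
      continuous_toFun := by fun_prop
      source' := (he 0 q.1 q.2 (Or.inl rfl)).trans (Path.source _)
      target' := (he 1 q.1 q.2 (Or.inr rfl)).trans (Path.target _) }
  have hK : Continuous K := Path.continuous_uncurry_iff.1
    (by show Continuous fun z : (Disc.Dn n × I) × I => H (Disc.susp (z.1.1, z.2), z.1.2); fun_prop)
  refine Top.Good.hRel_inj (hσ (n + 1)) n.lt_succ_self _ _ hb
    ⟨⟨K, hK⟩, fun p => Path.ext (funext fun t => ?_), fun p => Path.ext (funext fun t => ?_),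
      fun z r => Path.ext (funext fun t => ?_)⟩
  · exact (h0 _).trans (hc p t)
  · exact (h1 _).trans (hc' p t)
  · obtain ⟨z', hz'⟩ := Disc.susp_incl z t
    show H (Disc.susp (Disc.incl z, t), r) = s.sig X x y ((s.cell _ n w) (Disc.incl z)) t
    rw [← hz', hH, hz', hc]

/-- A disc between two end points comes from a disc of the groupoid between them. -/
theorem exists_hom_disc {n : ℕ} (X : Gpd C) {x y : X.cells 0} (hσ : Top.WeakEq (s.sig X x y))
    (e : C(Disc.Sn n, GX (s.homGpd X x y))) (F : C(Disc.Dn (n + 1), GX X))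
    (hl : ∀ p, F (Disc.susp (p, 0)) = vtx X x) (hr : ∀ p, F (Disc.susp (p, 1)) = vtx X y)
    (he : ∀ z t, F (Disc.susp (Disc.incl z, t)) = s.sig X x y (e z) t) :
    ∃ G : C(Disc.Dn n, GX (s.homGpd X x y)), (∀ z, G (Disc.incl z) = e z) ∧
      ∀ w, Disc.HRel (s.cell _ n w) G → Disc.HRel (s.cell X (n + 1) w.1) F := by
  let P : C(Disc.Dn n, Path (vtx X x) (vtx X y)) :=
    ⟨fun p =>
      { toFun := fun t => F (Disc.susp (p, t))
        continuous_toFun := by fun_prop
        source' := hl p
        target' := hr p },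
      Path.continuous_uncurry_iff.1
        (by show Continuous fun z : Disc.Dn n × I => F (Disc.susp z); fun_prop)⟩
  obtain ⟨G, hG, hGP⟩ := Top.Good.lift_disc (hσ (n + 1)) n.lt_succ_self e P
    fun z => Path.ext (funext fun t => he z t)
  refine ⟨G, hG, fun w hw => ?_⟩
  have hc : ∀ p t, (s.cell X (n + 1) w.1) (Disc.susp (p, t)) =
      s.sig X x y ((s.cell _ n w) p) t := s.cell_susp X w.1 w.2.1 w.2.2 w rfl
  obtain ⟨J, j0, j1, jb⟩ :=
    (Disc.conn_iff_hRel.1 (hw.conn.map (s.sig X x y))).trans hGP.symm
  refine Disc.hRel_of_susp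
    ⟨fun z => J (z.1.1, z.2) z.1.2, (Path.continuous_uncurry_iff.2 J.continuous).comp
      (show Continuous fun z : (Disc.Dn n × I) × I => ((z.1.1, z.2), z.1.2) by fun_prop)⟩
    (fun p t => ?_) (fun p t => ?_) (fun z t r => ?_) (fun p r => ?_) fun p r => ?_
  · show J (p, 0) t = _
    rw [j0, hc]; rfl
  · show J (p, 1) t = _
    rw [j1]; rfl
  · show J (Disc.incl z, r) t = _
    rw [jb, hc]; rfl
  · exact (Path.source _).trans ((hc p 0).trans (Path.source _)).symm
  · exact (Path.target _).trans ((hc p 1).trans (Path.target _)).symm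

theorem connected_of_hom {n : ℕ} (X : Gpd C) {x y : X.cells 0}
    {w w' : (s.homGpd X x y).cells n} (h : (s.homGpd X x y).Connected w w') :
    X.Connected (n := n + 1) w.1 w'.1 := by
  obtain ⟨k, hs, ht⟩ := h
  exact ⟨k.1,
    (congrArg (fun g => X.act g k.1) (s.suspMap_src n)).symm.trans (congrArg Subtype.val hs),
    (congrArg (fun g => X.act g k.1) (s.suspMap_tgt n)).symm.trans (congrArg Subtype.val ht)⟩

theorem first_par {n : ℕ} (X : Gpd C) {a a' : X.cells (n + 1)} (hs : X.s a = X.s a') :
    X.act (s.first (disc (n + 1))) a = X.act (s.first (disc (n + 1))) a' := by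
  cases n with
  | zero => rw [s.first_one]; exact hs
  | succ m =>
    rw [← s.first_src m]
    exact (X.act_comp _ _ a).trans ((congrArg (X.act _) hs).trans (X.act_comp _ _ a').symm)

theorem last_par {n : ℕ} (X : Gpd C) {a a' : X.cells (n + 1)} (hs : X.s a = X.s a')
    (ht : X.t a = X.t a') :
    X.act (s.last (disc (n + 1))) a = X.act (s.last (disc (n + 1))) a' := by
  cases n with
  | zero => rw [s.last_one]; exact ht
  | succ m =>
    rw [← s.last_src m]
    exact (X.act_comp _ _ a).trans ((congrArg (X.act _) hs).trans (X.act_comp _ _ a').symm)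

/-- Cells with given faces are the discs with given boundary. -/
theorem W_succ (hC : IsCoherator C) (hσ : ∀ X x y, Top.WeakEq (s.sig X x y)) :
    ∀ (n : ℕ) (X : Gpd C) (a a' : X.cells n), Gpd.Par X a a' →
    (∀ u u' : X.cells (n + 1), X.s u = a → X.t u = a' → X.s u' = a → X.t u' = a' →
      Disc.HRel (s.cell X (n + 1) u) (s.cell X (n + 1) u') → X.Connected u u') ∧
    ∀ F : C(Disc.Dn (n + 1), GX X),
      (∀ p, F (Disc.source p) = (s.cell X n a) p) →
      (∀ p, F (Disc.target p) = (s.cell X n a') p) →
      ∃ u : X.cells (n + 1), X.s u = a ∧ X.t u = a' ∧ Disc.HRel (s.cell X (n + 1) u) F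
  | 0, X, a, a', _ => by
    have hw : ∀ {v : X.cells 1}, X.s v = a → X.t v = a' →
        X.act (s.first (disc 1)) v = a ∧ X.act (s.last (disc 1)) v = a' := fun h h' =>
      ⟨(congrArg (fun g => X.act g _) s.first_one).trans h,
        (congrArg (fun g => X.act g _) s.last_one).trans h'⟩
    refine ⟨fun u u' hu hu' hv hv' h => ?_, fun F hFs hFt => ?_⟩
    · let w : (s.homGpd X a a').cells 0 := ⟨u, hw hu hu'⟩
      let w' : (s.homGpd X a a').cells 0 := ⟨u', hw hv hv'⟩
      obtain ⟨H, h0, h1, -⟩ := s.hRel_hom X (hσ X a a') w w' (fun z => isEmptyElim z) h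
      refine s.connected_of_hom X ((s.W_zero hC _).1 w w'
        ⟨⟨⟨fun t => H (default, t), by fun_prop⟩, ?_, ?_⟩⟩)
      · exact (h0 _).trans (s.cell_zero _ w _)
      · exact (h1 _).trans (s.cell_zero _ w' _)
    · obtain ⟨G, -, hG⟩ := s.exists_hom_disc X (hσ X a a')
        ⟨fun z => isEmptyElim z, continuous_of_const fun z => isEmptyElim z⟩ F
        (fun p => by rw [Disc.susp_zero_eq_source p p, hFs, s.cell_zero])
        (fun p => by rw [Disc.susp_one_eq_target p p, hFt, s.cell_zero])
        (fun z => isEmptyElim z)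
      obtain ⟨w, ⟨γ⟩⟩ := (s.W_zero hC _).2 (G default)
      refine ⟨w.1, ?_, ?_, hG w ⟨⟨fun q => γ q.2, by fun_prop⟩, fun p => ?_, fun p => ?_,
        fun z => isEmptyElim z⟩⟩
      · exact (congrArg (fun g => X.act g w.1) s.first_one).symm.trans w.2.1
      · exact (congrArg (fun g => X.act g w.1) s.last_one).symm.trans w.2.2
      · exact γ.source.trans (s.cell_zero _ w p).symm
      · exact γ.target.trans (congrArg G (Subsingleton.elim _ _))
  | n + 1, X, a, a', hpar => by
    let x := X.act (s.first (disc (n + 1))) a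
    let y := X.act (s.last (disc (n + 1))) a
    let b : (s.homGpd X x y).cells n := ⟨a, rfl, rfl⟩
    let b' : (s.homGpd X x y).cells n :=
      ⟨a', (s.first_par X hpar.1).symm, (s.last_par X hpar.1 hpar.2).symm⟩
    have hb : Gpd.Par (s.homGpd X x y) b b' := by
      cases n with
      | zero => trivial
      | succ m =>
        exact ⟨Subtype.ext (((congrArg (fun g => X.act g a) (s.suspMap_src m)).trans
          hpar.1).trans (congrArg (fun g => X.act g a') (s.suspMap_src m)).symm),
          Subtype.ext (((congrArg (fun g => X.act g a) (s.suspMap_tgt m)).trans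
          hpar.2).trans (congrArg (fun g => X.act g a') (s.suspMap_tgt m)).symm)⟩
    have hw : ∀ {v : X.cells (n + 2)}, X.s v = a →
        X.act (s.first (disc (n + 2))) v = x ∧ X.act (s.last (disc (n + 2))) v = y := fun h =>
      ⟨by rw [← s.first_src n]; exact (X.act_comp _ _ _).trans (congrArg (X.act _) h),
        by rw [← s.last_src n]; exact (X.act_comp _ _ _).trans (congrArg (X.act _) h)⟩
    have hf : ∀ (v : (s.homGpd X x y).cells (n + 1)),
        ((s.homGpd X x y).s v = b ↔ X.s v.1 = a) ∧ ((s.homGpd X x y).t v = b' ↔ X.t v.1 = a') :=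
      fun v => ⟨⟨fun h => (congrArg (fun g => X.act g v.1) (s.suspMap_src n)).symm.trans
            (congrArg Subtype.val h),
          fun h => Subtype.ext ((congrArg (fun g => X.act g v.1) (s.suspMap_src n)).trans h)⟩,
        ⟨fun h => (congrArg (fun g => X.act g v.1) (s.suspMap_tgt n)).symm.trans
            (congrArg Subtype.val h),
          fun h => Subtype.ext ((congrArg (fun g => X.act g v.1) (s.suspMap_tgt n)).trans h)⟩⟩
    obtain ⟨hinj, hsurj⟩ := W_succ hC hσ n (s.homGpd X x y) b b' hb
    refine ⟨fun u u' hu hu' hv hv' h => ?_, fun F hFs hFt => ?_⟩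
    · let w : (s.homGpd X x y).cells (n + 1) := ⟨u, hw hu⟩
      let w' : (s.homGpd X x y).cells (n + 1) := ⟨u', hw hv⟩
      have e1 := (hf w).1.2 hu
      have e2 := (hf w).2.2 hu'
      have e3 := (hf w').1.2 hv
      have e4 := (hf w').2.2 hv'
      exact s.connected_of_hom X (hinj w w' e1 e2 e3 e4 (s.hRel_hom X (hσ X x y) w w'
        (s.cell_par _ (show Gpd.Par _ w w' from ⟨e1.trans e3.symm, e2.trans e4.symm⟩)) h))
    · obtain ⟨e, hes, het⟩ := Disc.exists_glue (s.cell _ n b) (s.cell _ n b') (s.cell_par _ hb)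
      have hend : ∀ (p : Disc.Dn (n + 1)) (q : Disc.Dn n) (t : I), t = 0 ∨ t = 1 →
          F (Disc.susp (p, t)) = s.sig X x y ((s.cell _ n b) q) t := fun p q t ht => by
        rw [Disc.susp_eq_of_width p (Disc.source q) (Disc.width_eq_zero.2 ht), Disc.susp_source,
          hFs, s.cell_susp X a rfl rfl b rfl]
      obtain ⟨G, hGe, hG⟩ := s.exists_hom_disc X (hσ X x y) e F
        (fun p => (hend p default 0 (Or.inl rfl)).trans (Path.source _))
        (fun p => (hend p default 1 (Or.inr rfl)).trans (Path.target _))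
        (fun z t => by
          refine congrFun (Disc.sphere_ext (F := fun z => F (Disc.susp (Disc.incl z, t)))
            (G := fun z => s.sig X x y (e z) t) (fun q => ?_) fun q => ?_) z
          · show F (Disc.susp (Disc.source q, t)) = _
            rw [Disc.susp_source, hFs, hes, s.cell_susp X a rfl rfl b rfl]
          · show F (Disc.susp (Disc.target q, t)) = _
            rw [Disc.susp_target, hFt, het, s.cell_susp X a' b'.2.1 b'.2.2 b' rfl])
      obtain ⟨w, hws, hwt, hwG⟩ := hsurj G (fun p => (hGe _).trans (hes p))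
        (fun p => (hGe _).trans (het p))
      exact ⟨w.1, (hf w).1.1 hws, (hf w).2.1 hwt, hG w hwG⟩

end Shape

end Vale.Agent.P259
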