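import Vale.Agent.P259.Five.Transition
import Vale.Agent.P259.Real.Nerve
import Vale.Agent.P259.Top.CompRight

/-! P259, step 5: the classes of functors inducing good maps of classifying spaces. -/

noncomputable section

open CategoryTheory

namespace Vale.Agent.P259

open Real (bmap BC)

/-- `bmap F` is `n`-good. -/
def BGood {A B : Type} [SmallCategory A] [SmallCategory B] (n : ℕ) (F : A ⥤ B) : Prop :=
  Top.Good n (bmap F)

/-- `bmap F` is a weak equivalence. -/
def BWeak {A B : Type} [SmallCategory A] [SmallCategory B] (F : A ⥤ B) : Prop :=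
  Top.WeakEq (bmap F)

variable {A B D D' : Type} [SmallCategory A] [SmallCategory B] [SmallCategory D] [SmallCategory D']
variable {n : ℕ}

theorem BGood.of_natTrans {F G : A ⥤ B} (η : F ⟶ G) : BGood n F ↔ BGood n G :=
  ⟨fun h => Top.Good.of_homotopic h (Real.homotopic_of_natTrans η),
    fun h => Top.Good.of_homotopic h (Real.homotopic_of_natTrans η).symm⟩

theorem BGood.comp {F : A ⥤ B} {G : B ⥤ D} (hF : BGood n F) (hG : BGood n G) :
    BGood n (F ⋙ G) := by
  unfold BGood
  rw [Real.bmap_comp, ContinuousMap.coe_comp]
  exact Top.Good.comp hG hF (bmap F).continuous (bmap G).continuous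

theorem BGood.of_comp_left {F : A ⥤ B} {G : B ⥤ D} (h : BGood n (F ⋙ G)) (hF : BGood n F) :
    BGood n G := by
  unfold BGood at h ⊢
  rw [Real.bmap_comp, ContinuousMap.coe_comp] at h
  exact Top.Good.of_comp_right h hF (bmap G).continuous (bmap F).continuous

theorem BGood.of_comp_right {F : A ⥤ B} {G : B ⥤ D} (h : BGood n (F ⋙ G)) (hG : BGood n G) :
    BGood n F := by
  unfold BGood at h ⊢
  rw [Real.bmap_comp, ContinuousMap.coe_comp] at h
  exact Top.Good.of_comp_left h hG (bmap G).continuous (bmap F).continuous

theorem BGood.two_of_six {F : A ⥤ B} {G : B ⥤ D} {H : D ⥤ D'} (h : BGood n (F ⋙ G))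
    (h' : BGood n (G ⋙ H)) : BGood n F := by
  unfold BGood at h h' ⊢
  rw [Real.bmap_comp, ContinuousMap.coe_comp] at h h'
  exact Top.Good.sandwich h h' (bmap G).continuous (bmap F).continuous (bmap H).continuous

/-- An equivalence of categories gives a homotopy equivalence. -/
def bEquiv (e : A ≌ B) : ContinuousMap.HomotopyEquiv (BC A) (BC B) where
  toFun := bmap e.functor
  invFun := bmap e.inverse
  left_inv := by
    rw [← Real.bmap_comp, ← Real.bmap_id]
    exact Real.homotopic_of_natTrans e.unitIso.inv
  right_inv := by
    rw [← Real.bmap_comp, ← Real.bmap_id]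
    exact Real.homotopic_of_natTrans e.counitIso.hom

theorem BWeak.of_equivalence (e : A ≌ B) : BWeak e.functor :=
  Top.WeakEq.of_homotopyEquiv (bEquiv e)

/-- The `n`-good functors form a good class. -/
def goodClass (n : ℕ) : GoodClass where
  Good F := BGood n F
  of_natTrans η := BGood.of_natTrans η
  comp hF hG := BGood.comp hF hG
  of_comp_left h hF := BGood.of_comp_left h hF
  of_comp_right h hG := BGood.of_comp_right h hG
  two_of_six h h' := BGood.two_of_six h h'

/-- Weak equivalences form a good class. -/
def weakClass : GoodClass where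
  Good F := BWeak F
  of_natTrans η := forall_congr' fun _ => BGood.of_natTrans η
  comp hF hG n := BGood.comp (hF n) (hG n)
  of_comp_left h hF n := BGood.of_comp_left (h n) (hF n)
  of_comp_right h hG n := BGood.of_comp_right (h n) (hG n)
  two_of_six h h' n := BGood.two_of_six (h n) (h' n)

end Vale.Agent.P259
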