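import Vale.Agent.P259.Five.Transition

/-! P259, step 5: contractible groupoids. -/

noncomputable section

open CategoryTheory Opposite

namespace Vale.Agent.P259

variable {C : GlobExt}

/-- A contractible groupoid: it has a vertex and every parallel pair of cells is connected. -/
def IsContr (X : Gpd C) : Prop :=
  Nonempty (X.cells 0) ∧ (∀ x y : X.cells 0, X.Connected x y) ∧
    ∀ (n : ℕ) (a b : X.cells (n + 1)), X.s a = X.s b → X.t a = X.t b → X.Connected a b

theorem isContr_repGpd (s : Shape C) (hL : HasLifts C) (R : GlobSum) : IsContr (repGpd C R) := by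
  refine ⟨⟨s.first R⟩, fun x y => ?_, fun n a b hs ht => ?_⟩
  · obtain ⟨h, h₁, h₂⟩ := (hL 0 R x y trivial).some
    exact ⟨h, h₁, h₂⟩
  · obtain ⟨h, h₁, h₂⟩ := (hL (n + 1) R a b ⟨hs, ht⟩).some
    exact ⟨h, h₁, h₂⟩

namespace Shape

variable (s : Shape C) {X : Gpd C}

/-- A connection of cells of `Hom` from a connection in `X`. -/
theorem connected_hom {x y : X.cells 0} {n : ℕ} (a b : (s.homGpd X x y).cells n)
    (h : X.Connected (n := n + 1) a.1 b.1) : (s.homGpd X x y).Connected a b := by
  obtain ⟨c, hs, ht⟩ := h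
  have e : X.act (s.suspMap (C.ι (src n))) c = a.1 :=
    (congrArg (fun g => X.act g c) (s.suspMap_src n)).trans hs
  have e' : X.act (s.suspMap (C.ι (tgt n))) c = b.1 :=
    (congrArg (fun g => X.act g c) (s.suspMap_tgt n)).trans ht
  refine ⟨⟨c, ?_, ?_⟩, Subtype.ext e, Subtype.ext e'⟩
  · exact (congrArg (fun g => X.act g c) (s.suspMap_first (C.ι (src n))).symm).trans
      ((X.act_comp _ _ _).trans ((congrArg (X.act _) e).trans a.2.1))
  · exact (congrArg (fun g => X.act g c) (s.suspMap_last (C.ι (src n))).symm).trans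
      ((X.act_comp _ _ _).trans ((congrArg (X.act _) e).trans a.2.2))

theorem isContr_homGpd (hX : IsContr X) (x y : X.cells 0) : IsContr (s.homGpd X x y) := by
  obtain ⟨-, h₀, h₁⟩ := hX
  refine ⟨?_, fun a b => ?_, fun n a b hs ht => ?_⟩
  · obtain ⟨u, hu, hu'⟩ := h₀ x y
    exact ⟨⟨u, (congrArg (fun g => X.act g u) s.first_one).trans hu,
      (congrArg (fun g => X.act g u) s.last_one).trans hu'⟩⟩
  · refine s.connected_hom a b (h₁ 0 a.1 b.1 ?_ ?_)
    · exact ((congrArg (fun g => X.act g a.1) s.first_one).symm.trans a.2.1).trans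
        ((congrArg (fun g => X.act g b.1) s.first_one).symm.trans b.2.1).symm
    · exact ((congrArg (fun g => X.act g a.1) s.last_one).symm.trans a.2.2).trans
        ((congrArg (fun g => X.act g b.1) s.last_one).symm.trans b.2.2).symm
  · refine s.connected_hom a b (h₁ (n + 1) a.1 b.1 ?_ ?_)
    · exact ((congrArg (fun g => X.act g a.1) (s.suspMap_src n)).symm.trans
        (congrArg Subtype.val hs)).trans (congrArg (fun g => X.act g b.1) (s.suspMap_src n))
    · exact ((congrArg (fun g => X.act g a.1) (s.suspMap_tgt n)).symm.trans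
        (congrArg Subtype.val ht)).trans (congrArg (fun g => X.act g b.1) (s.suspMap_tgt n))

theorem isContr_target (hL : HasLifts C) {x : X.cells 0} (b : El X)
    (o : StructuredArrow b (Pointed.U s X x)) : IsContr (s.target b o) :=
  s.isContr_homGpd (isContr_repGpd s hL _) _ _

end Shape

end Vale.Agent.P259
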