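import Vale.Agent.P259.Five.Sigma
import Vale.Agent.P259.Five.Contractible
import Vale.Agent.P259.Five.Class
import Vale.Agent.P259.Real.TheoremAB

/-!
P259, step 5: the space of a contractible groupoid is contractible up to weak equivalence, and
the suspension map to paths is a weak equivalence.
-/

noncomputable section

open CategoryTheory Opposite

namespace Vale.Agent.P259

variable {C : GlobExt}

namespace Shape

variable (s : Shape C) (X : Gpd C) (x y : X.cells 0)

/-- Suspension as a functor into the elements under the second vertex. -/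
def L : El (s.homGpd X x y) ⥤ StructuredArrow (⟨disc 0, y⟩ : El X) (Pointed.U s X x) where
  obj a := StructuredArrow.mk (Y := (⟨⟨a.S.shift, a.u.1⟩, a.u.2.1⟩ : Pointed s X x))
    ((s.fromLast X x y).app a)
  map {a a'} f := StructuredArrow.homMk
    ⟨(s.toEl X x y).map f, s.suspMap_first f.h⟩ (El.hom_ext (s.suspMap_last f.h))
  map_id a := StructuredArrow.hom_ext _ _ (Pointed.hom_ext (s.suspMap_id a.S))
  map_comp f g := StructuredArrow.hom_ext _ _ (Pointed.hom_ext (s.suspMap_comp f.h g.h))

variable {X x y}

theorem act_first_zero : X.act (s.first (disc 0)) y = y := by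
  rw [s.first_zero]; exact X.act_id y

/-- The suspension maps to its wedge with a point. -/
def LToK : s.L X x y ⟶ s.K x (⟨disc 0, y⟩ : El X) s.act_first_zero where
  app a := StructuredArrow.homMk
    ⟨⟨s.inl a.S (disc 0), s.glued_inl (⟨disc 0, y⟩ : El X) s.act_first_zero a⟩,
      s.first_wedge a.S (disc 0)⟩
    (El.hom_ext ((s.glue a.S (disc 0)).trans
      ((congrArg (C.comp · _) s.first_zero).trans (C.id_comp _))))
  naturality a a' f := StructuredArrow.hom_ext _ _ (Pointed.hom_ext
    (s.inl_wedgeMap f.h (C.id (disc 0)) (C.comp_id _)).symm)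

end Shape

variable (s : Shape C) (hL : HasLifts C)

include s in
/-- The elements of a contractible groupoid form a connected category. -/
theorem pathConnected_of_isContr {X : Gpd C} (hX : IsContr X) : PathConnectedSpace (GX X) := by
  obtain ⟨x₀⟩ := hX.1
  have hzero : ∀ a : El X, Joined (Real.vertex a) (vtx X x₀) := fun a => by
    obtain ⟨u, hu, hu'⟩ := hX.2.1 (X.act (s.first a.S) a.u) x₀
    let i : (⟨disc 0, X.act (s.first a.S) a.u⟩ : El X) ⟶ a := ⟨s.first a.S, rfl⟩
    let f : (⟨disc 0, X.act (s.first a.S) a.u⟩ : El X) ⟶ ⟨disc 1, u⟩ := ⟨C.ι (src 0), hu⟩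
    let g : (⟨disc 0, x₀⟩ : El X) ⟶ ⟨disc 1, u⟩ := ⟨C.ι (tgt 0), hu'⟩
    exact ((Real.joined_vertex i).symm.trans (Real.joined_vertex f)).trans
      (Real.joined_vertex g).symm
  refine ⟨⟨vtx X x₀⟩, fun z z' => ?_⟩
  obtain ⟨a, ha⟩ := Real.exists_joined_vertex z
  obtain ⟨a', ha'⟩ := Real.exists_joined_vertex z'
  exact (ha.trans (hzero a)).trans (ha'.trans (hzero a')).symm

include hL in
/-- If the spaces of contractible groupoids are `n`-connected, every `K` is `n`-good. -/
theorem Shape.good_K {n : ℕ} (ih : ∀ Y : Gpd C, IsContr Y → Top.Conn n (GX Y)) {X : Gpd C}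
    (x y : X.cells 0) (b : El X) (hy : X.act (s.first b.S) b.u = y) :
    BGood n (s.K x b hy) :=
  Real.theoremA' _ fun o =>
    (ih _ (s.isContr_target hL b o)).of_good' (f := Real.bmap (s.commaEquivalence (b := b) (o := o) hy).functor)
      (BWeak.of_equivalence (s.commaEquivalence (b := b) (o := o) hy) n)

include s hL in
/-- The space of a contractible groupoid is `n`-connected for every `n`. -/
theorem conn_of_isContr (n : ℕ) : ∀ X : Gpd C, IsContr X → Top.Conn n (GX X) := by
  induction n with
  | zero => exact fun X hX => Top.Conn.zero ⟨vtx X hX.1.some⟩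
  | succ n ih =>
    intro X hX
    have := pathConnected_of_isContr s hX
    obtain ⟨x⟩ := hX.1
    have hU : ∀ b : El X, Top.Conn n (Real.BC (StructuredArrow b (Pointed.U s X x))) := fun b =>
      (ih _ (s.isContr_homGpd hX x _)).of_good (f := Real.bmap (s.K x b rfl))
        (s.good_K hL ih x _ b rfl)
    have hS := Real.theoremB (n := n) (Pointed.U s X x) Pointed.baseIsInitial
      (fun f => Top.Good.of_conn _ (hU _) (hU _)) (⟨disc 0, x⟩ : El X)
    exact Top.Conn.of_loops (vtx X x) ((hU _).of_good hS)

include hL in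
/-- Every restriction functor induces a weak equivalence. -/
theorem Shape.weq_res {X : Gpd C} (x : X.cells 0) {b b' : El X} (h : b' ⟶ b) :
    BWeak (s.res x h) :=
  s.good_res weakClass (fun y b hy n => s.good_K hL (conn_of_isContr s hL n) x y b hy) hL h

include hL in
/-- The suspension map is a weak equivalence. -/
theorem sig_weq (X : Gpd C) (x y : X.cells 0) : Top.WeakEq (s.sig X x y) := by
  intro n
  have hL' : BGood n (s.L X x y) :=
    (BGood.of_natTrans s.LToK).2 (s.good_K hL (conn_of_isContr s hL n) x y _ _)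
  have hS := Real.theoremB (n := n) (Pointed.U s X x) Pointed.baseIsInitial
    (fun f => s.weq_res hL x f n) (⟨disc 0, y⟩ : El X)
  refine Eq.mp (congrArg (Top.Good n) (funext fun z => ?_))
    (Top.Good.comp hS hL' (Real.bmap (s.L X x y)).continuous (ContinuousMap.continuous _))
  exact (Real.span_precomp (s.L X x y) _ _ _ _ _ z).symm

end Vale.Agent.P259
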