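import Vale.Agent.P259.Five.Sigma
import Vale.Agent.P259.Disc.Susp

/-!
P259: the cells of the spaces of globular sums, by iterated suspension, and the discs of cells.
-/

noncomputable section

open CategoryTheory Opposite unitInterval

namespace Vale.Agent.P259

variable {C : GlobExt}

namespace Shape

variable (s : Shape C)

theorem first_src (n : ℕ) :
    C.comp (s.first (disc (n + 1))) (C.ι (src (n + 1))) = s.first (disc (n + 2)) := by
  rw [← s.suspMap_src n]
  exact s.suspMap_first (C.ι (src n))

theorem first_tgt (n : ℕ) :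
    C.comp (s.first (disc (n + 1))) (C.ι (tgt (n + 1))) = s.first (disc (n + 2)) := by
  rw [← s.suspMap_tgt n]
  exact s.suspMap_first (C.ι (tgt n))

theorem last_src (n : ℕ) :
    C.comp (s.last (disc (n + 1))) (C.ι (src (n + 1))) = s.last (disc (n + 2)) := by
  rw [← s.suspMap_src n]
  exact s.suspMap_last (C.ι (src n))

theorem last_tgt (n : ℕ) :
    C.comp (s.last (disc (n + 1))) (C.ι (tgt (n + 1))) = s.last (disc (n + 2)) := by
  rw [← s.suspMap_tgt n]
  exact s.suspMap_last (C.ι (tgt n))

/-- The identity of a disc as a cell between its two end points. -/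
def topCell (n : ℕ) : (s.homGpd (repGpd C (disc (n + 1))) (s.first (disc (n + 1)))
    (s.last (disc (n + 1)))).cells n :=
  ⟨C.id (disc (n + 1)), C.comp_id _, C.comp_id _⟩

/-- The suspension of a family of points, on the cylinder. -/
def cylinder (n : ℕ) (f : C(Disc.Dn n, TS C (disc n))) :
    C(Disc.Dn n × I, TS C (disc (n + 1))) :=
  ⟨fun q => s.sig (repGpd C (disc (n + 1))) (s.first _) (s.last _)
      (gMap _ (S := disc n) (s.topCell n) (f q.1)) q.2,
    Path.continuous_uncurry_iff.2 ((s.sig _ _ _).continuous.comp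
      ((gMap _ (S := disc n) (s.topCell n)).continuous.comp f.continuous))⟩

theorem cylinder_zero (n : ℕ) (f : C(Disc.Dn n, TS C (disc n))) (p : Disc.Dn n) :
    s.cylinder n f (p, 0) = vtx (repGpd C (disc (n + 1))) (s.first (disc (n + 1))) :=
  (s.sig (repGpd C (disc (n + 1))) (s.first _) (s.last _)
    (gMap _ (S := disc n) (s.topCell n) (f p))).source

theorem cylinder_one (n : ℕ) (f : C(Disc.Dn n, TS C (disc n))) (p : Disc.Dn n) :
    s.cylinder n f (p, 1) = vtx (repGpd C (disc (n + 1))) (s.last (disc (n + 1))) :=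
  (s.sig (repGpd C (disc (n + 1))) (s.first _) (s.last _)
    (gMap _ (S := disc n) (s.topCell n) (f p))).target

/-- The cells of the spaces `TS`. -/
def beta : ∀ n : ℕ, C(Disc.Dn n, TS C (disc n))
  | 0 => ContinuousMap.const _ (vtx (repGpd C (disc 0)) (C.id (disc 0)))
  | n + 1 => (Disc.exists_susp_lift (s.cylinder n (beta n))
      (fun _ _ => (s.cylinder_zero n _ _).trans (s.cylinder_zero n _ _).symm)
      (fun _ _ => (s.cylinder_one n _ _).trans (s.cylinder_one n _ _).symm)).choose

theorem beta_susp (n : ℕ) (p : Disc.Dn n) (t : I) :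
    (s.beta (n + 1)) (Disc.susp (p, t)) = s.sig (repGpd C (disc (n + 1))) (s.first _) (s.last _)
      (gMap _ (S := disc n) (s.topCell n) ((s.beta n) p)) t :=
  (Disc.exists_susp_lift (s.cylinder n (s.beta n))
    (fun _ _ => (s.cylinder_zero n _ _).trans (s.cylinder_zero n _ _).symm)
    (fun _ _ => (s.cylinder_one n _ _).trans (s.cylinder_one n _ _).symm)).choose_spec p t

/-- The disc of a cell. -/
def cell (X : Gpd C) (n : ℕ) (u : X.cells n) : C(Disc.Dn n, GX X) :=
  (gMap X (S := disc n) u).comp (s.beta n)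

theorem cell_apply (X : Gpd C) (n : ℕ) (u : X.cells n) (p : Disc.Dn n) :
    (s.cell X n u) p = gMap X (S := disc n) u ((s.beta n) p) := rfl

theorem cell_zero (X : Gpd C) (x : X.cells 0) (p : Disc.Dn 0) : (s.cell X 0 x) p = vtx X x :=
  (Real.bmap_vertex _ _).trans (congrArg Real.vertex (El.mk_congr (X.act_id x)))

theorem cell_susp (X : Gpd C) {n : ℕ} (u : X.cells (n + 1)) {x y : X.cells 0}
    (hx : X.act (s.first (disc (n + 1))) u = x) (hy : X.act (s.last (disc (n + 1))) u = y)
    (w : (s.homGpd X x y).cells n) (hw : w.1 = u) (p : Disc.Dn n) (t : I) :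
    (s.cell X (n + 1) u) (Disc.susp (p, t)) = s.sig X x y ((s.cell _ n w) p) t :=
  (congrArg (gMap X (S := disc (n + 1)) u) (s.beta_susp n p t)).trans
    (s.gMap_sig X (S := disc (n + 1)) (T := disc n) u _ _ hx hy (s.topCell n) w
      ((X.act_id u).trans hw.symm) ((s.beta n) p) t)

theorem cell_source : ∀ (n : ℕ) (X : Gpd C) (u : X.cells (n + 1)) (p : Disc.Dn n),
    (s.cell X (n + 1) u) (Disc.source p) = (s.cell X n (X.s u)) p
  | 0, X, u, p => by
    rw [← Disc.susp_zero_eq_source p p, s.cell_zero,
      s.cell_susp X u (x := X.s u) (y := X.t u) (congrArg (fun h => X.act h u) s.first_one)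
        (congrArg (fun h => X.act h u) s.last_one)
        ⟨u, congrArg (fun h => X.act h u) s.first_one, congrArg (fun h => X.act h u) s.last_one⟩ rfl]
    exact Path.source _
  | n + 1, X, u, p => by
    obtain ⟨⟨q, t⟩, rfl⟩ := Disc.susp_surjective p
    let w : (s.homGpd X (X.act (s.first (disc (n + 2))) u)
      (X.act (s.last (disc (n + 2))) u)).cells (n + 1) := ⟨u, rfl, rfl⟩
    rw [← Disc.susp_source, s.cell_susp X u rfl rfl w rfl, cell_source n _ w q,
      s.cell_susp X (X.s u) ((X.act_comp _ _ _).symm.trans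
        (congrArg (fun h => X.act h u) (s.first_src n))) ((X.act_comp _ _ _).symm.trans
        (congrArg (fun h => X.act h u) (s.last_src n))) (Gpd.s _ w)
        (congrArg (fun h => X.act h u) (s.suspMap_src n))]

theorem cell_target : ∀ (n : ℕ) (X : Gpd C) (u : X.cells (n + 1)) (p : Disc.Dn n),
    (s.cell X (n + 1) u) (Disc.target p) = (s.cell X n (X.t u)) p
  | 0, X, u, p => by
    rw [← Disc.susp_one_eq_target p p, s.cell_zero,
      s.cell_susp X u (x := X.s u) (y := X.t u) (congrArg (fun h => X.act h u) s.first_one)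
        (congrArg (fun h => X.act h u) s.last_one)
        ⟨u, congrArg (fun h => X.act h u) s.first_one, congrArg (fun h => X.act h u) s.last_one⟩ rfl]
    exact Path.target _
  | n + 1, X, u, p => by
    obtain ⟨⟨q, t⟩, rfl⟩ := Disc.susp_surjective p
    let w : (s.homGpd X (X.act (s.first (disc (n + 2))) u)
      (X.act (s.last (disc (n + 2))) u)).cells (n + 1) := ⟨u, rfl, rfl⟩
    rw [← Disc.susp_target, s.cell_susp X u rfl rfl w rfl, cell_target n _ w q,
      s.cell_susp X (X.t u) ((X.act_comp _ _ _).symm.trans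
        (congrArg (fun h => X.act h u) (s.first_tgt n))) ((X.act_comp _ _ _).symm.trans
        (congrArg (fun h => X.act h u) (s.last_tgt n))) (Gpd.t _ w)
        (congrArg (fun h => X.act h u) (s.suspMap_tgt n))]

theorem beta_src (n : ℕ) (p : Disc.Dn n) : (s.beta (n + 1)) (Disc.source p) =
    gMap (repGpd C (disc (n + 1))) (S := disc n) (C.ι (src n)) ((s.beta n) p) := by
  refine (gMap_id (disc (n + 1)) _).symm.trans
    ((s.cell_source n (repGpd C (disc (n + 1))) (C.id (disc (n + 1))) p).trans ?_)
  exact congrArg (fun h : C.Hom (disc n) (disc (n + 1)) =>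
    gMap (repGpd C (disc (n + 1))) (S := disc n) h ((s.beta n) p)) (C.comp_id _)

theorem beta_tgt (n : ℕ) (p : Disc.Dn n) : (s.beta (n + 1)) (Disc.target p) =
    gMap (repGpd C (disc (n + 1))) (S := disc n) (C.ι (tgt n)) ((s.beta n) p) := by
  refine (gMap_id (disc (n + 1)) _).symm.trans
    ((s.cell_target n (repGpd C (disc (n + 1))) (C.id (disc (n + 1))) p).trans ?_)
  exact congrArg (fun h : C.Hom (disc n) (disc (n + 1)) =>
    gMap (repGpd C (disc (n + 1))) (S := disc n) h ((s.beta n) p)) (C.comp_id _)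

/-- Parallel cells have discs agreeing on the sphere. -/
theorem cell_par : ∀ {n : ℕ} (X : Gpd C) {a a' : X.cells n}, Gpd.Par X a a' →
    ∀ z : Disc.Sn n, (s.cell X n a) (Disc.incl z) = (s.cell X n a') (Disc.incl z)
  | 0, _, _, _, _, z => isEmptyElim z
  | n + 1, X, a, a', h, z => by
    refine congrFun (Disc.sphere_ext (F := fun z => (s.cell X (n + 1) a) (Disc.incl z))
      (G := fun z => (s.cell X (n + 1) a') (Disc.incl z)) (fun p => ?_) fun p => ?_) z
    · exact (s.cell_source n X a p).trans
        ((congrArg (fun c => (s.cell X n c) p) h.1).trans (s.cell_source n X a' p).symm)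
    · exact (s.cell_target n X a p).trans
        ((congrArg (fun c => (s.cell X n c) p) h.2).trans (s.cell_target n X a' p).symm)

end Shape

end Vale.Agent.P259
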