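import Vale.Agent.P259.Five.Pointed

/-! P259, step 5: the commas of `K_b` are categories of elements of Hom groupoids of representables. -/

noncomputable section

open CategoryTheory Opposite

namespace Vale.Agent.P259

variable {C : GlobExt}

namespace Shape

variable (s : Shape C) {X : Gpd C} {x y : X.cells 0}
variable (b : El X) (hy : X.act (s.first b.S) b.u = y)
variable (o : StructuredArrow b (Pointed.U s X x))

/-- The groupoid of maps into the target of `o` from its first vertex to the first vertex of `b`. -/
def target : Gpd C :=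
  s.homGpd (repGpd C o.right.el.S) (s.first o.right.el.S) (C.comp (s.first b.S) o.hom.h)

variable {b o}

theorem first_side (a : CostructuredArrow (s.K x b hy) o) :
    C.comp (s.first (s.susp a.left.S)) (C.comp (s.inl a.left.S b.S) a.hom.right.f.h) =
      s.first o.right.el.S :=
  (C.assoc _ _ _).symm.trans
    ((congrArg (C.comp · a.hom.right.f.h) (s.first_wedge a.left.S b.S)).trans a.hom.right.first)

theorem last_side (a : CostructuredArrow (s.K x b hy) o) :
    C.comp (s.last (s.susp a.left.S)) (C.comp (s.inl a.left.S b.S) a.hom.right.f.h) =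
      C.comp (s.first b.S) o.hom.h :=
  ((C.assoc _ _ _).symm.trans
    (congrArg (C.comp · a.hom.right.f.h) (s.glue a.left.S b.S))).trans
    ((C.assoc _ _ _).trans (congrArg (C.comp (s.first b.S))
      (congrArg El.Map.h (StructuredArrow.w a.hom))))

/-- The inclusion `Σ T ⟶ R` of an object of the comma. -/
def side (a : CostructuredArrow (s.K x b hy) o) : (s.target b o).val a.left.S :=
  ⟨C.comp (s.inl a.left.S b.S) a.hom.right.f.h, s.first_side hy a, s.last_side hy a⟩

/-- Forgetting the wedge. -/
def toTarget : CostructuredArrow (s.K x b hy) o ⥤ El (s.target b o) where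
  obj a := ⟨a.left.S, s.side hy a⟩
  map {a a'} f := ⟨f.left.h, Subtype.ext
    ((C.assoc _ _ _).symm.trans
      ((congrArg (C.comp · a'.hom.right.f.h)
          (s.inl_wedgeMap f.left.h (C.id b.S) (C.comp_id _)).symm).trans
        ((C.assoc _ _ _).trans (congrArg (C.comp (s.inl a.left.S b.S))
          (congrArg (fun g => g.right.f.h) (CostructuredArrow.w f))))))⟩
  map_id a := El.hom_ext rfl
  map_comp f g := El.hom_ext rfl

theorem first_back (a : El (s.target b o)) :
    X.act (s.first (s.susp a.S)) (X.act a.u.1 o.right.el.u) = x :=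
  ((X.act_comp _ _ _).symm.trans (congrArg (fun g => X.act g o.right.el.u) a.u.2.1)).trans
    o.right.hx

include hy in
theorem last_back (a : El (s.target b o)) :
    X.act (s.last (s.susp a.S)) (X.act a.u.1 o.right.el.u) = y :=
  ((X.act_comp _ _ _).symm.trans (congrArg (fun g => X.act g o.right.el.u) a.u.2.2)).trans
    ((X.act_comp _ _ _).trans ((congrArg (X.act (s.first b.S)) o.hom.compat).trans hy))

include hy in
/-- The pulled back element. -/
def back (a : El (s.target b o)) : El (s.homGpd X x y) :=
  ⟨a.S, ⟨X.act a.u.1 o.right.el.u, s.first_back a, s.last_back hy a⟩⟩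

variable (b o) in
/-- The map `Σ T ∨ b ⟶ R`. -/
def join (a : El (s.target b o)) : C.Hom (s.wedge a.S b.S) o.right.el.S :=
  (s.wedge_hom a.S b.S o.right.el.S a.u.1 o.hom.h a.u.2.2).choose

theorem inl_join (a : El (s.target b o)) : C.comp (s.inl a.S b.S) (s.join b o a) = a.u.1 :=
  (s.wedge_hom a.S b.S o.right.el.S a.u.1 o.hom.h a.u.2.2).choose_spec.1.1

theorem inr_join (a : El (s.target b o)) : C.comp (s.inr a.S b.S) (s.join b o a) = o.hom.h :=
  (s.wedge_hom a.S b.S o.right.el.S a.u.1 o.hom.h a.u.2.2).choose_spec.1.2

theorem glued_back (a : El (s.target b o)) :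
    s.glued b hy (s.back hy a) = X.act (s.join b o a) o.right.el.u :=
  s.glued_eq b hy (s.back hy a) (w := X.act (s.join b o a) o.right.el.u)
    ((X.act_comp _ _ _).symm.trans (congrArg (fun g => X.act g o.right.el.u) (s.inl_join a)))
    ((X.act_comp _ _ _).symm.trans
      ((congrArg (fun g => X.act g o.right.el.u) (s.inr_join a)).trans o.hom.compat))

theorem first_join (a : El (s.target b o)) :
    C.comp (s.first (s.wedge a.S b.S)) (s.join b o a) = s.first o.right.el.S :=
  ((congrArg (C.comp · (s.join b o a)) (s.first_wedge a.S b.S).symm).trans (C.assoc _ _ _)).trans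
    ((congrArg (C.comp (s.first _)) (s.inl_join a)).trans a.u.2.1)

/-- The object of the comma given by a map `Σ T ⟶ R`. -/
def ofTargetObj (a : El (s.target b o)) : CostructuredArrow (s.K x b hy) o :=
  CostructuredArrow.mk (Y := s.back hy a) (StructuredArrow.homMk
    ⟨⟨s.join b o a, (s.glued_back hy a).symm⟩, s.first_join a⟩
    (El.hom_ext (s.inr_join a)))

theorem wedgeMap_join {a a' : El (s.target b o)} (f : a ⟶ a') :
    C.comp (s.wedgeMap f.h (C.id b.S) (C.comp_id _)) (s.join b o a') = s.join b o a :=
  s.wedge_ext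
    (((C.assoc _ _ _).symm.trans
      (congrArg (C.comp · (s.join b o a')) (s.inl_wedgeMap f.h (C.id b.S) (C.comp_id _)))).trans
      (((C.assoc _ _ _).trans (congrArg (C.comp (s.suspMap f.h)) (s.inl_join a'))).trans
        ((congrArg Subtype.val f.compat).trans (s.inl_join a).symm)))
    (((C.assoc _ _ _).symm.trans
      (congrArg (C.comp · (s.join b o a')) (s.inr_wedgeMap f.h (C.id b.S) (C.comp_id _)))).trans
      (((C.assoc _ _ _).trans (C.id_comp _)).trans ((s.inr_join a').trans (s.inr_join a).symm)))

theorem join_toTarget (a : CostructuredArrow (s.K x b hy) o) :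
    s.join b o ((s.toTarget hy).obj a) = a.hom.right.f.h :=
  s.wedge_ext (T := a.left.S) (s.inl_join ((s.toTarget hy).obj a))
    ((s.inr_join ((s.toTarget hy).obj a)).trans
      (congrArg El.Map.h (StructuredArrow.w a.hom)).symm)

theorem back_side (a : CostructuredArrow (s.K x b hy) o) :
    (s.back hy ((s.toTarget hy).obj a)).u.1 = a.left.u.1 :=
  (X.act_comp (s.inl a.left.S b.S) a.hom.right.f.h o.right.el.u).trans
    ((congrArg (X.act (s.inl a.left.S b.S)) a.hom.right.f.compat).trans
      (s.glued_inl b hy a.left))

/-- A map of `el Hom` that is the identity on the shape. -/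
def idShape {Y : Gpd C} {a a' : Y.cells 0} {T : GlobSum} (u v : (s.homGpd Y a a').val T)
    (e : u.1 = v.1) : (⟨T, u⟩ : El (s.homGpd Y a a')) ≅ ⟨T, v⟩ where
  hom := ⟨C.id T, Subtype.ext
    ((congrArg (fun g => Y.act g v.1) (s.suspMap_id T)).trans ((Y.act_id _).trans e.symm))⟩
  inv := ⟨C.id T, Subtype.ext
    ((congrArg (fun g => Y.act g u.1) (s.suspMap_id T)).trans ((Y.act_id _).trans e))⟩
  hom_inv_id := El.hom_ext (C.id_comp _)
  inv_hom_id := El.hom_ext (C.id_comp _)

/-- Restoring the wedge. -/
def ofTarget : El (s.target b o) ⥤ CostructuredArrow (s.K x b hy) o where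
  obj := s.ofTargetObj hy
  map {a a'} f := CostructuredArrow.homMk
    (⟨f.h, Subtype.ext ((X.act_comp _ _ _).symm.trans
      (congrArg (fun g => X.act g o.right.el.u) (congrArg Subtype.val f.compat)))⟩ :
        s.back hy a ⟶ s.back hy a')
    (StructuredArrow.hom_ext _ _ (Pointed.hom_ext (s.wedgeMap_join f)))
  map_id a := CostructuredArrow.hom_ext _ _ (El.hom_ext rfl)
  map_comp f g := CostructuredArrow.hom_ext _ _ (El.hom_ext rfl)

/-- The comma of `K_b` is the category of elements of a Hom groupoid of a representable. -/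
def commaEquivalence : CostructuredArrow (s.K x b hy) o ≌ El (s.target b o) :=
  CategoryTheory.Equivalence.mk (s.toTarget hy) (s.ofTarget hy)
    (NatIso.ofComponents (fun a => CostructuredArrow.isoMk
      (s.idShape a.left.u (s.back hy ((s.toTarget hy).obj a)).u (s.back_side hy a).symm)
      (StructuredArrow.hom_ext _ _ (Pointed.hom_ext
        ((congrArg (C.comp · (s.join b o ((s.toTarget hy).obj a)))
          (s.wedgeMap_id a.left.S b.S)).trans ((C.id_comp _).trans (s.join_toTarget hy a))))))
      fun {a a'} f => CostructuredArrow.hom_ext _ _ (El.hom_ext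
        ((C.comp_id _).trans (C.id_comp _).symm)))
    (NatIso.ofComponents
      (fun a => s.idShape ((s.toTarget hy).obj ((s.ofTarget hy).obj a)).u a.u (s.inl_join a))
      fun {a a'} f => El.hom_ext ((C.comp_id _).trans (C.id_comp _).symm))

end Shape

end Vale.Agent.P259
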