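import Vale.Agent.P259.Shift
import Vale.Agent.P259.Five.El

/-! P259, step 5: the shape interface and Hom groupoids. -/

noncomputable section

open CategoryTheory Opposite

namespace Vale.Agent.P259

variable {C : GlobExt}

/-- What step 5 needs from the coherator: end points, suspension and the wedge at a point. -/
structure Shape (C : GlobExt) : Type 1 where
  first : ∀ S, C.Hom (disc 0) S
  last : ∀ S, C.Hom (disc 0) S
  first_zero : first (disc 0) = C.id _
  last_zero : last (disc 0) = C.id _
  first_one : first (disc 1) = C.ι (src 0)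
  last_one : last (disc 1) = C.ι (tgt 0)
  suspMap : ∀ {A B : GlobSum}, C.Hom A B → C.Hom A.shift B.shift
  suspMap_src : ∀ n, suspMap (C.ι (src n)) = C.ι (src (n + 1))
  suspMap_tgt : ∀ n, suspMap (C.ι (tgt n)) = C.ι (tgt (n + 1))
  suspMap_id : ∀ A : GlobSum, suspMap (C.id A) = C.id A.shift
  suspMap_comp : ∀ {A B D} (f : C.Hom A B) (g : C.Hom B D),
    suspMap (C.comp f g) = C.comp (suspMap f) (suspMap g)
  suspMap_first : ∀ {A B : GlobSum} (h : C.Hom A B), C.comp (first A.shift) (suspMap h) = first B.shift
  suspMap_last : ∀ {A B : GlobSum} (h : C.Hom A B), C.comp (last A.shift) (suspMap h) = last B.shift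
  susp_sums : ∀ X : Gpd C, SendsSumsToLimits (fun A : GlobSum => X.val A.shift)
    (fun f => X.act (suspMap (C.ι f)))
  wedge : GlobSum → GlobSum → GlobSum
  inl : ∀ T S : GlobSum, C.Hom T.shift (wedge T S)
  inr : ∀ T S, C.Hom S (wedge T S)
  glue : ∀ T S : GlobSum, C.comp (last T.shift) (inl T S) = C.comp (first S) (inr T S)
  first_wedge : ∀ T S : GlobSum, C.comp (first T.shift) (inl T S) = first (wedge T S)
  wedge_hom : ∀ (T S R : GlobSum) (f : C.Hom T.shift R) (g : C.Hom S R),
    C.comp (last T.shift) f = C.comp (first S) g →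
      ∃! w : C.Hom (wedge T S) R, C.comp (inl T S) w = f ∧ C.comp (inr T S) w = g
  wedge_val : ∀ (X : Gpd C) (T S : GlobSum) (f : X.val T.shift) (g : X.val S),
    X.act (last T.shift) f = X.act (first S) g →
      ∃! w : X.val (wedge T S), X.act (inl T S) w = f ∧ X.act (inr T S) w = g

namespace Shape

variable (s : Shape C) {X : Gpd C}

/-- The suspension of a globular sum. -/
abbrev susp (_s : Shape C) (A : GlobSum) : GlobSum := A.shift

/-- The presheaf of elements over suspensions with prescribed ends. -/
def homPresheaf (X : Gpd C) (x y : X.cells 0) : C.Objᵒᵖ ⥤ Type where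
  obj A := {u : X.val (s.susp (unop A : GlobSum)) //
    X.act (s.first _) u = x ∧ X.act (s.last _) u = y}
  map {A B} f := TypeCat.ofHom fun u => ⟨X.act (s.suspMap f.unop) u.1,
    ((X.act_comp _ _ _).symm.trans
      ((congrArg (fun h => X.act h u.1) (s.suspMap_first f.unop)).trans u.2.1)),
    ((X.act_comp _ _ _).symm.trans
      ((congrArg (fun h => X.act h u.1) (s.suspMap_last f.unop)).trans u.2.2))⟩
  map_id A := by
    refine ConcreteCategory.hom_ext _ _ fun u => Subtype.ext ?_
    exact ((congrArg (fun h => X.act h u.1) (s.suspMap_id _)).trans (X.act_id _))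
  map_comp f g := by
    refine ConcreteCategory.hom_ext _ _ fun u => Subtype.ext ?_
    exact ((congrArg (fun h => X.act h u.1) (s.suspMap_comp g.unop f.unop)).trans
      (X.act_comp _ _ _))

theorem homPresheaf_isGroupoid (X : Gpd C) (x y : X.cells 0) :
    IsGroupoid (s.homPresheaf X x y) := by
  intro A v hv
  obtain ⟨a, ha, huniq⟩ := s.susp_sums X A (fun l => (v l).1) fun l => congrArg Subtype.val (hv l)
  have hx : X.act (s.first _) a = x := by
    rw [← s.suspMap_first (C.ι (incl A 0)), X.act_comp]
    exact (congrArg (X.act (s.first _)) (ha 0)).trans (v 0).2.1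
  have hy : X.act (s.last _) a = y := by
    rw [← s.suspMap_last (C.ι (incl A 0)), X.act_comp]
    exact (congrArg (X.act (s.last _)) (ha 0)).trans (v 0).2.2
  exact ⟨⟨a, hx, hy⟩, fun l => Subtype.ext (ha l),
    fun b hb => Subtype.ext (huniq b.1 fun l => congrArg Subtype.val (hb l))⟩

/-- The groupoid of cells from `x` to `y`. -/
def homGpd (X : Gpd C) (x y : X.cells 0) : Gpd C :=
  ⟨s.homPresheaf X x y, s.homPresheaf_isGroupoid X x y⟩

theorem homGpd_act (X : Gpd C) (x y : X.cells 0) {A B : GlobSum} (h : C.Hom A B)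
    (u : (s.homGpd X x y).val B) :
    ((s.homGpd X x y).act h u).1 = X.act (s.suspMap h) u.1 := rfl

end Shape

end Vale.Agent.P259
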