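import Vale.Agent.P259.Five.Hom

/-! P259, step 5: pointed elements, the functors `K`, their commas and the restriction functors. -/

noncomputable section

open CategoryTheory Opposite

namespace Vale.Agent.P259

variable {C : GlobExt} (s : Shape C)

/-- Pointed elements: the first vertex is `x`. -/
structure Pointed (X : Gpd C) (x : X.cells 0) : Type where
  el : El X
  hx : X.act (s.first el.S) el.u = x

variable {s} {X : Gpd C} {x : X.cells 0}

namespace Pointed

/-- A map of pointed elements fixes the first vertex. -/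
@[ext]
structure Map (a b : Pointed s X x) : Type where
  f : a.el ⟶ b.el
  first : C.comp (s.first a.el.S) f.h = s.first b.el.S

instance : Category.{0} (Pointed s X x) where
  Hom := Map
  id a := ⟨𝟙 a.el, C.comp_id _⟩
  comp {a b c} f g := ⟨f.f ≫ g.f, by
    simp only [El.comp_h]; rw [← C.assoc, f.first, g.first]⟩
  id_comp f := Map.ext (Category.id_comp f.f)
  comp_id f := Map.ext (Category.comp_id f.f)
  assoc f g k := Map.ext (Category.assoc f.f g.f k.f)

@[simp] theorem comp_f {a b c : Pointed s X x} (f : a ⟶ b) (g : b ⟶ c) :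
    (f ≫ g).f = f.f ≫ g.f := rfl

@[simp] theorem id_f (a : Pointed s X x) : (𝟙 a : a ⟶ a).f = 𝟙 a.el := rfl

@[ext] theorem hom_ext {a b : Pointed s X x} {f g : a ⟶ b} (e : f.f.h = g.f.h) : f = g :=
  Map.ext (El.hom_ext e)

variable (s X x)

/-- The forgetful functor. -/
def U : Pointed s X x ⥤ El X where
  obj a := a.el
  map f := f.f

/-- The initial pointed element. -/
def base : Pointed s X x := ⟨⟨disc 0, x⟩, by rw [s.first_zero]; exact X.act_id x⟩

variable {s X x}

/-- The map out of the initial pointed element. -/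
def fromBase (a : Pointed s X x) : base s X x ⟶ a :=
  ⟨⟨s.first a.el.S, a.hx⟩, by simp only [base, s.first_zero, C.id_comp]⟩

theorem fromBase_unique {a : Pointed s X x} (f : base s X x ⟶ a) : f = fromBase a := by
  refine hom_ext ?_
  have h := f.first
  rw [show s.first (base s X x).el.S = C.id (disc 0) from s.first_zero] at h
  exact (C.id_comp _).symm.trans h

/-- `base` is initial. -/
def baseIsInitial : Limits.IsInitial (base s X x) :=
  Limits.IsInitial.ofUniqueHom fromBase fun _ f => fromBase_unique f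

end Pointed

namespace Shape

variable (s)

/-- The glued element `(T, v) ∨ b`. -/
def glued {y : X.cells 0} (b : El X) (hy : X.act (s.first b.S) b.u = y)
    (a : El (s.homGpd X x y)) : X.val (s.wedge a.S b.S) :=
  (s.wedge_val X a.S b.S a.u.1 b.u (a.u.2.2.trans hy.symm)).choose

theorem glued_inl {y : X.cells 0} (b : El X) (hy : X.act (s.first b.S) b.u = y)
    (a : El (s.homGpd X x y)) :
    X.act (s.inl a.S b.S) (s.glued b hy a) = a.u.1 :=
  (s.wedge_val X a.S b.S a.u.1 b.u (a.u.2.2.trans hy.symm)).choose_spec.1.1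

theorem glued_inr {y : X.cells 0} (b : El X) (hy : X.act (s.first b.S) b.u = y)
    (a : El (s.homGpd X x y)) :
    X.act (s.inr a.S b.S) (s.glued b hy a) = b.u :=
  (s.wedge_val X a.S b.S a.u.1 b.u (a.u.2.2.trans hy.symm)).choose_spec.1.2

theorem glued_eq {y : X.cells 0} (b : El X) (hy : X.act (s.first b.S) b.u = y)
    (a : El (s.homGpd X x y)) {w : X.val (s.wedge a.S b.S)}
    (hl : X.act (s.inl a.S b.S) w = a.u.1) (hr : X.act (s.inr a.S b.S) w = b.u) :
    s.glued b hy a = w :=
  ((s.wedge_val X a.S b.S a.u.1 b.u (a.u.2.2.trans hy.symm)).choose_spec.2 w ⟨hl, hr⟩).symm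

theorem glue_pair {T T' S S' : GlobSum} (h : C.Hom T T') (q : C.Hom S S')
    (hq : C.comp (s.first S) q = s.first S') :
    C.comp (s.last (s.susp T)) (C.comp (s.suspMap h) (s.inl T' S')) =
      C.comp (s.first S) (C.comp q (s.inr T' S')) := by
  rw [← C.assoc, s.suspMap_last, s.glue, ← C.assoc, hq]

/-- The map `Σh ∨ q`. -/
def wedgeMap {T T' S S' : GlobSum} (h : C.Hom T T') (q : C.Hom S S')
    (hq : C.comp (s.first S) q = s.first S') : C.Hom (s.wedge T S) (s.wedge T' S') :=
  (s.wedge_hom T S _ _ _ (s.glue_pair h q hq)).choose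

theorem inl_wedgeMap {T T' S S' : GlobSum} (h : C.Hom T T') (q : C.Hom S S')
    (hq : C.comp (s.first S) q = s.first S') :
    C.comp (s.inl T S) (s.wedgeMap h q hq) = C.comp (s.suspMap h) (s.inl T' S') :=
  (s.wedge_hom T S _ _ _ (s.glue_pair h q hq)).choose_spec.1.1

theorem inr_wedgeMap {T T' S S' : GlobSum} (h : C.Hom T T') (q : C.Hom S S')
    (hq : C.comp (s.first S) q = s.first S') :
    C.comp (s.inr T S) (s.wedgeMap h q hq) = C.comp q (s.inr T' S') :=
  (s.wedge_hom T S _ _ _ (s.glue_pair h q hq)).choose_spec.1.2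

theorem wedge_ext {T S R : GlobSum} {w w' : C.Hom (s.wedge T S) R}
    (hl : C.comp (s.inl T S) w = C.comp (s.inl T S) w')
    (hr : C.comp (s.inr T S) w = C.comp (s.inr T S) w') : w = w' :=
  (s.wedge_hom T S R _ _ (by rw [← C.assoc, s.glue, C.assoc])).unique ⟨hl, hr⟩ ⟨rfl, rfl⟩

theorem first_wedgeMap {T T' S S' : GlobSum} (h : C.Hom T T') (q : C.Hom S S')
    (hq : C.comp (s.first S) q = s.first S') :
    C.comp (s.first (s.wedge T S)) (s.wedgeMap h q hq) = s.first (s.wedge T' S') := by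
  rw [← s.first_wedge, C.assoc, s.inl_wedgeMap, ← C.assoc, s.suspMap_first, s.first_wedge]

theorem wedgeMap_id (T S : GlobSum) :
    s.wedgeMap (C.id T) (C.id S) (C.comp_id _) = C.id (s.wedge T S) :=
  s.wedge_ext (by rw [s.inl_wedgeMap, s.suspMap_id, C.id_comp, C.comp_id])
    (by rw [s.inr_wedgeMap, C.id_comp, C.comp_id])

theorem wedgeMap_comp {T T' T'' S S' S'' : GlobSum} (h : C.Hom T T') (h' : C.Hom T' T'')
    (q : C.Hom S S') (q' : C.Hom S' S'') (hq : C.comp (s.first S) q = s.first S')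
    (hq' : C.comp (s.first S') q' = s.first S'')
    (hqq : C.comp (s.first S) (C.comp q q') = s.first S'') :
    C.comp (s.wedgeMap h q hq) (s.wedgeMap h' q' hq') =
      s.wedgeMap (C.comp h h') (C.comp q q') hqq :=
  s.wedge_ext
    (by rw [← C.assoc, s.inl_wedgeMap, C.assoc, s.inl_wedgeMap, ← C.assoc, ← s.suspMap_comp,
      s.inl_wedgeMap])
    (by rw [← C.assoc, s.inr_wedgeMap, C.assoc, s.inr_wedgeMap, ← C.assoc, s.inr_wedgeMap])

theorem wedgeMap_congr {T T' S S' : GlobSum} {h h' : C.Hom T T'} {q q' : C.Hom S S'}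
    (hh : h = h') (hqq : q = q') (hq : C.comp (s.first S) q = s.first S')
    (hq' : C.comp (s.first S) q' = s.first S') :
    s.wedgeMap h q hq = s.wedgeMap h' q' hq' := by
  subst hh hqq; rfl

theorem act_wedgeMap {y : X.cells 0} (b b' : El X) (hy : X.act (s.first b.S) b.u = y)
    (hy' : X.act (s.first b'.S) b'.u = y) (q : b ⟶ b')
    (hq : C.comp (s.first b.S) q.h = s.first b'.S) {a a' : El (s.homGpd X x y)} (f : a ⟶ a') :
    X.act (s.wedgeMap f.h q.h hq) (s.glued b' hy' a') = s.glued b hy a := by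
  refine (s.glued_eq b hy a ?_ ?_).symm
  · rw [← X.act_comp, s.inl_wedgeMap, X.act_comp, s.glued_inl b' hy']
    exact congrArg Subtype.val f.compat
  · rw [← X.act_comp, s.inr_wedgeMap, X.act_comp, s.glued_inr b' hy', q.compat]

variable (x) in
/-- The pointed element `(T, v) ∨ b`. -/
def gluedPointed {y : X.cells 0} (b : El X) (hy : X.act (s.first b.S) b.u = y)
    (a : El (s.homGpd X x y)) : Pointed s X x :=
  ⟨⟨s.wedge a.S b.S, s.glued b hy a⟩, by
    rw [← s.first_wedge, X.act_comp, s.glued_inl b hy]; exact a.u.2.1⟩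

variable (x) in
/-- `K_b : el Hom(x, first b) ⥤ b/U`. -/
def K {y : X.cells 0} (b : El X) (hy : X.act (s.first b.S) b.u = y) :
    El (s.homGpd X x y) ⥤ StructuredArrow b (Pointed.U s X x) where
  obj a := StructuredArrow.mk (Y := s.gluedPointed x b hy a)
    (show b ⟶ (Pointed.U s X x).obj _ from ⟨s.inr a.S b.S, s.glued_inr b hy a⟩)
  map {a a'} f := StructuredArrow.homMk
    ⟨⟨s.wedgeMap f.h (C.id b.S) (C.comp_id _),
        s.act_wedgeMap b b hy hy (𝟙 b) (C.comp_id _) f⟩,
      s.first_wedgeMap f.h (C.id b.S) (C.comp_id _)⟩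
    (El.hom_ext ((s.inr_wedgeMap f.h (C.id b.S) (C.comp_id _)).trans (C.id_comp _)))
  map_id a := StructuredArrow.hom_ext _ _ (Pointed.hom_ext (s.wedgeMap_id a.S b.S))
  map_comp {a a' a''} f g := StructuredArrow.hom_ext _ _ (Pointed.hom_ext
    ((s.wedgeMap_congr rfl (C.id_comp (C.id b.S)).symm (C.comp_id _)
      (by rw [C.id_comp, C.comp_id])).trans
      (s.wedgeMap_comp f.h g.h (C.id b.S) (C.id b.S) (C.comp_id _) (C.comp_id _) _).symm))

/-- A map fixing the first vertex gives `K_b ⟶ K_b' ⋙ q^*`. -/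
def transition {y : X.cells 0} (b b' : El X) (hy : X.act (s.first b.S) b.u = y)
    (hy' : X.act (s.first b'.S) b'.u = y) (q : b ⟶ b')
    (hq : C.comp (s.first b.S) q.h = s.first b'.S) :
    s.K x b hy ⟶ s.K x b' hy' ⋙ StructuredArrow.map q where
  app a := StructuredArrow.homMk
    ⟨⟨s.wedgeMap (C.id a.S) q.h hq, s.act_wedgeMap b b' hy hy' q hq (𝟙 a)⟩,
      s.first_wedgeMap (C.id a.S) q.h hq⟩
    (El.hom_ext (s.inr_wedgeMap (C.id a.S) q.h hq))
  naturality a a' f := StructuredArrow.hom_ext _ _ (Pointed.hom_ext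
    ((s.wedgeMap_comp f.h (C.id a'.S) (C.id b.S) q.h (C.comp_id _) hq
      (by rw [C.id_comp, hq])).trans
      ((s.wedgeMap_congr (by rw [C.comp_id, C.id_comp]) (by rw [C.comp_id, C.id_comp]) _ _).trans
        (s.wedgeMap_comp (C.id a.S) f.h q.h (C.id b'.S) hq (C.comp_id _)
          (by rw [C.comp_id, hq])).symm)))

end Shape

end Vale.Agent.P259
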