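import Vale.Agent.P259.Ext.GX
import Vale.Agent.P259.Five.Hom
import Vale.Agent.P259.Real.Span

/-!
P259: the suspension map from the space of the groupoid of cells between two points to the paths
between the two vertices, and its naturality in elements.
-/

noncomputable section

open CategoryTheory Opposite unitInterval

namespace Vale.Agent.P259

variable {C : GlobExt} (s : Shape C) (X : Gpd C)

namespace Shape

/-- An element over a globular sum as an element over its suspension. -/
def toEl (x y : X.cells 0) : El (s.homGpd X x y) ⥤ El X where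
  obj a := ⟨a.S.shift, a.u.1⟩
  map {a b} f := ⟨s.suspMap f.h, congrArg Subtype.val f.compat⟩
  map_id a := El.hom_ext (s.suspMap_id a.S)
  map_comp f g := El.hom_ext (s.suspMap_comp f.h g.h)

/-- The first point of a suspended element. -/
def fromFirst (x y : X.cells 0) :
    (Functor.const (El (s.homGpd X x y))).obj (⟨disc 0, x⟩ : El X) ⟶ s.toEl X x y where
  app a := ⟨s.first a.S.shift, a.u.2.1⟩
  naturality a b f := El.hom_ext ((C.id_comp _).trans (s.suspMap_first f.h).symm)

/-- The last point of a suspended element. -/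
def fromLast (x y : X.cells 0) :
    (Functor.const (El (s.homGpd X x y))).obj (⟨disc 0, y⟩ : El X) ⟶ s.toEl X x y where
  app a := ⟨s.last a.S.shift, a.u.2.2⟩
  naturality a b f := El.hom_ext ((C.id_comp _).trans (s.suspMap_last f.h).symm)

/-- The suspension map. -/
def sig (x y : X.cells 0) : C(GX (s.homGpd X x y), Path (vtx X x) (vtx X y)) :=
  Real.span (s.toEl X x y) _ _ (s.fromFirst X x y) (s.fromLast X x y)

end Shape

theorem span_congr {J : Type} [SmallCategory J] {F F' : J ⥤ El X} (h : F = F') {d₀ d₁ : El X}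
    (α : (Functor.const J).obj d₀ ⟶ F) (β : (Functor.const J).obj d₁ ⟶ F)
    (α' : (Functor.const J).obj d₀ ⟶ F') (β' : (Functor.const J).obj d₁ ⟶ F')
    (hα : ∀ j, HEq (α.app j).h (α'.app j).h) (hβ : ∀ j, HEq (β.app j).h (β'.app j).h)
    (z : Real.BC J) (t : I) :
    Real.span F d₀ d₁ α β z t = Real.span F' d₀ d₁ α' β' z t := by
  subst h
  obtain rfl : α = α' := NatTrans.ext (funext fun j => El.hom_ext (eq_of_heq (hα j)))
  obtain rfl : β = β' := NatTrans.ext (funext fun j => El.hom_ext (eq_of_heq (hβ j)))
  rfl

namespace Shape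

/-- The suspension map is natural in elements. -/
theorem gMap_sig {S T : GlobSum} (u : X.val S) (a b : (repGpd C S).cells 0) {x y : X.cells 0}
    (hx : X.act (show C.Hom (disc 0) S from a) u = x)
    (hy : X.act (show C.Hom (disc 0) S from b) u = y)
    (v : (s.homGpd (repGpd C S) a b).val T) (w : (s.homGpd X x y).val T)
    (hw : X.act (show C.Hom T.shift S from v.1) u = w.1) (z : TS C T) (t : I) :
    gMap X u (s.sig (repGpd C S) a b (gMap _ v z) t) = s.sig X x y (gMap _ w z) t := by
  subst hx hy
  let L := yMap (s.homGpd (repGpd C S) a b) v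
  let L' := yMap (s.homGpd X (X.act a u) (X.act b u)) w
  let M := yMap X u
  refine (congrArg (fun p : Path _ _ => Real.bmap M (p t))
    (Real.span_precomp L (s.toEl (repGpd C S) a b) _ _ (s.fromFirst (repGpd C S) a b)
      (s.fromLast (repGpd C S) a b) z).symm).trans ?_
  refine (Real.span_postcomp M (L ⋙ s.toEl (repGpd C S) a b) _ _ _ _ z
    ⟨fun j => M.map ((s.fromFirst (repGpd C S) a b).app (L.obj j)), fun i j f =>
      El.hom_ext ((C.id_comp _).trans (s.suspMap_first f.h).symm)⟩ (fun _ => rfl)
    ⟨fun j => M.map ((s.fromLast (repGpd C S) a b).app (L.obj j)), fun i j f =>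
      El.hom_ext ((C.id_comp _).trans (s.suspMap_last f.h).symm)⟩ (fun _ => rfl) t).symm.trans ?_
  refine Eq.trans ?_ (congrArg (fun p : Path _ _ => p t)
    (Real.span_precomp L' (s.toEl X _ _) _ _ (s.fromFirst X _ _) (s.fromLast X _ _) z))
  refine span_congr X ?_ _ _ _ _ ?_ ?_ z t
  · refine El.functor_ext (fun j => El.mk_congr ?_) fun f => HEq.rfl
    show X.act (C.comp (s.suspMap (show C.Hom j.S T from j.u)) v.1) u =
      X.act (s.suspMap (show C.Hom j.S T from j.u)) w.1
    rw [← hw]
    exact X.act_comp _ _ _
  · exact fun _ => HEq.rfl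
  · exact fun _ => HEq.rfl

end Shape

end Vale.Agent.P259
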