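import Vale.Agent.P259.Five.Comma

/-!
P259, step 5: every restriction functor `b/U ⥤ b'/U` is a good functor, for any class of functors
that is invariant under natural transformations and has the cancellation properties of maps that
are bijective on homotopy groups up to a fixed degree.
-/

noncomputable section

open CategoryTheory Opposite

namespace Vale.Agent.P259

/-- The properties used of the class of functors inducing isomorphisms up to a fixed degree. -/
structure GoodClass : Type 1 where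
  Good : ∀ {A B : Type} [SmallCategory A] [SmallCategory B], (A ⥤ B) → Prop
  of_natTrans : ∀ {A B : Type} [SmallCategory A] [SmallCategory B] {F G : A ⥤ B} (_ : F ⟶ G),
    Good F ↔ Good G
  comp : ∀ {A B D : Type} [SmallCategory A] [SmallCategory B] [SmallCategory D]
    {F : A ⥤ B} {G : B ⥤ D}, Good F → Good G → Good (F ⋙ G)
  of_comp_left : ∀ {A B D : Type} [SmallCategory A] [SmallCategory B] [SmallCategory D]
    {F : A ⥤ B} {G : B ⥤ D}, Good (F ⋙ G) → Good F → Good G
  of_comp_right : ∀ {A B D : Type} [SmallCategory A] [SmallCategory B] [SmallCategory D]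
    {F : A ⥤ B} {G : B ⥤ D}, Good (F ⋙ G) → Good G → Good F
  two_of_six : ∀ {A B D D' : Type} [SmallCategory A] [SmallCategory B] [SmallCategory D]
    [SmallCategory D'] {F : A ⥤ B} {G : B ⥤ D} {H : D ⥤ D'},
    Good (F ⋙ G) → Good (G ⋙ H) → Good F

/-- Every parallel pair has a lift. -/
def HasLifts (C : GlobExt) : Prop :=
  ∀ (n : ℕ) (S : GlobSum) (f g : C.Hom (disc n) S), Parallel C f g → Nonempty (Lift C f g)

variable {C : GlobExt}

namespace Shape

variable (s : Shape C) {X : Gpd C} {x : X.cells 0} (G : GoodClass)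

/-- A map of elements, as a functor between the commas. -/
abbrev res (x : X.cells 0) {b b' : El X} (h : b' ⟶ b) :
    StructuredArrow b (Pointed.U s X x) ⥤ StructuredArrow b' (Pointed.U s X x) :=
  StructuredArrow.map h

/-- Restrictions compose. -/
def resComp {b b' b'' : El X} (h : b' ⟶ b) (g : b'' ⟶ b') :
    s.res x (g ≫ h) ⟶ s.res x h ⋙ s.res x g where
  app o := StructuredArrow.homMk (𝟙 o.right) (by
    show ((g ≫ h) ≫ o.hom) ≫ (Pointed.U s X x).map _ = g ≫ h ≫ o.hom
    rw [CategoryTheory.Functor.map_id, Category.comp_id, Category.assoc])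
  naturality o o' f := StructuredArrow.hom_ext _ _ (by
    show f.right ≫ 𝟙 _ = 𝟙 _ ≫ f.right
    rw [Category.comp_id, Category.id_comp])

theorem good_res_comp {b b' b'' : El X} (h : b' ⟶ b) (g : b'' ⟶ b') :
    G.Good (s.res x (g ≫ h)) ↔ G.Good (s.res x h ⋙ s.res x g) :=
  G.of_natTrans (s.resComp h g)

variable (hK : ∀ (y : X.cells 0) (b : El X) (hy : X.act (s.first b.S) b.u = y),
  G.Good (s.K x b hy))

include hK

/-- A map fixing the first vertex restricts to a good functor. -/
theorem good_of_first {b b' : El X} (q : b ⟶ b')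
    (hq : C.comp (s.first b.S) q.h = s.first b'.S) : G.Good (s.res x q) := by
  have hy' : X.act (s.first b'.S) b'.u = X.act (s.first b.S) b.u := by
    rw [← hq, X.act_comp, q.compat]
  exact G.of_comp_left ((G.of_natTrans (s.transition b b' rfl hy' q hq)).1 (hK _ b rfl))
    (hK _ b' hy')

/-- The map from the first vertex. -/
theorem good_first (b : El X) (f : (⟨disc 0, X.act (s.first b.S) b.u⟩ : El X) ⟶ b)
    (hf : f.h = s.first b.S) : G.Good (s.res x f) :=
  s.good_of_first G hK f (by rw [hf, s.first_zero, C.id_comp])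

variable (hL : HasLifts C)

include hL

/-- The target of a 1-cell restricts to a good functor. -/
theorem good_tgt (u : X.val (disc 1))
    (f : (⟨disc 0, X.act (C.ι (tgt 0)) u⟩ : El X) ⟶ ⟨disc 1, u⟩) (hf : f.h = C.ι (tgt 0)) :
    G.Good (s.res x f) := by
  obtain ⟨rev, hsrc, htgt⟩ := (hL 0 (disc 1) (C.ι (tgt 0)) (C.ι (src 0)) trivial).some
  let ρ : ∀ w : X.val (disc 1), (⟨disc 1, X.act rev w⟩ : El X) ⟶ ⟨disc 1, w⟩ :=
    fun w => ⟨rev, rfl⟩
  have two : ∀ w, G.Good (s.res x (ρ (X.act rev w) ≫ ρ w)) := fun w =>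
    s.good_of_first G hK _ (by
      show C.comp (s.first (disc 1)) (C.comp rev rev) = s.first (disc 1)
      rw [s.first_one, ← C.assoc, hsrc, htgt])
  have hρ : ∀ w, G.Good (s.res x (ρ w)) := fun w =>
    G.two_of_six ((s.good_res_comp G _ _).1 (two w)) ((s.good_res_comp G _ _).1 (two (X.act rev w)))
  have e : X.act (s.first (disc 1)) (X.act rev u) = X.act (C.ι (tgt 0)) u := by
    rw [s.first_one, ← X.act_comp, hsrc]
  let i : (⟨disc 0, X.act (C.ι (tgt 0)) u⟩ : El X) ⟶ ⟨disc 1, X.act rev u⟩ :=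
    ⟨s.first (disc 1), e⟩
  have hi : G.Good (s.res x i) :=
    s.good_of_first G hK i (by show C.comp (s.first (disc 0)) _ = _; rw [s.first_zero, C.id_comp])
  have hcomp : f = i ≫ ρ u := El.hom_ext (by
    show f.h = C.comp (s.first (disc 1)) rev
    rw [hf, s.first_one, hsrc])
  rw [hcomp]
  exact (s.good_res_comp G _ _).2 (G.comp (hρ u) hi)

/-- Every vertex restricts to a good functor. -/
theorem good_vertex {b : El X} (z : X.cells 0) (v : (⟨disc 0, z⟩ : El X) ⟶ b) :
    G.Good (s.res x v) := by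
  obtain ⟨r, hsrc, htgt⟩ := (hL 0 b.S (s.first b.S) v.h trivial).some
  obtain rfl : X.act (C.ι (tgt 0)) (X.act r b.u) = z := by
    rw [← X.act_comp, htgt]; exact v.compat
  let j : (⟨disc 1, X.act r b.u⟩ : El X) ⟶ b := ⟨r, rfl⟩
  let t : (⟨disc 0, X.act (C.ι (tgt 0)) (X.act r b.u)⟩ : El X) ⟶ ⟨disc 1, X.act r b.u⟩ :=
    ⟨C.ι (tgt 0), rfl⟩
  have hv : v = t ≫ j := El.hom_ext htgt.symm
  rw [hv]
  refine (s.good_res_comp G _ _).2 (G.comp ?_ (s.good_tgt G hK hL _ t rfl))
  exact s.good_of_first G hK j (by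
    show C.comp (s.first (disc 1)) r = _
    rw [s.first_one, hsrc])

/-- **Every restriction functor is good.** -/
theorem good_res {b b' : El X} (h : b' ⟶ b) : G.Good (s.res x h) := by
  let i : (⟨disc 0, X.act (s.first b'.S) b'.u⟩ : El X) ⟶ b' := ⟨s.first b'.S, rfl⟩
  exact G.of_comp_right ((s.good_res_comp G _ _).1 (s.good_vertex G hK hL _ (i ≫ h)))
    (s.good_first G hK b' i rfl)

end Shape

end Vale.Agent.P259
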